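import Mathlib

/-!
Bin packing: definitions of `OPT` and of the Gilmore-Gomory configuration value `LPval`,
together with a verified checker for certificates (non-packability and fractional covers).
-/

namespace Vale.Agent.Lib.BinPacking

open Multiset

/-- `B` is a packing of the instance `I` (a finite multiset of item sizes): the bins of `B`
partition the items of `I`, and every bin has total size at most `1`. -/
def IsPacking (I : Multiset ℚ) (B : Multiset (Multiset ℚ)) : Prop :=
  B.join = I ∧ ∀ b ∈ B, b.sum ≤ 1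

/-- `OPT I`: the least number of bins of a packing of `I`. -/
noncomputable def OPT (I : Multiset ℚ) : ℕ :=
  sInf {k : ℕ | ∃ B : Multiset (Multiset ℚ), IsPacking I B ∧ Multiset.card B = k}

/-- A configuration of `I`: a multiset of sizes occurring in `I` (a size may be repeated more
often than its multiplicity in `I`) of total size at most `1`. -/
def IsConfig (I c : Multiset ℚ) : Prop :=
  (∀ s ∈ c, s ∈ I) ∧ c.sum ≤ 1

/-- A feasible solution of the configuration linear program of `I`: nonnegative weights on
finitely many configurations covering every size `s` of `I` at least `count s I` times. -/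
def IsFracCover (I : Multiset ℚ) (z : Multiset ℚ →₀ ℝ) : Prop :=
  (∀ c, 0 ≤ z c) ∧ (∀ c ∈ z.support, IsConfig I c) ∧
    ∀ s ∈ I, (I.count s : ℝ) ≤ z.sum (fun c w => (c.count s : ℝ) * w)

/-- The Gilmore-Gomory configuration value: the infimum of the total weight of a feasible solution. -/
noncomputable def LPval (I : Multiset ℚ) : ℝ :=
  sInf {v : ℝ | ∃ z : Multiset ℚ →₀ ℝ, IsFracCover I z ∧ z.sum (fun _ w => w) = v}

/-! ### Natural number version and the checker -/

/-- `S` (integer sizes) can be packed into `k` bins of capacity `L`. -/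
def PackableNat (L : ℕ) (S : Multiset ℕ) (k : ℕ) : Prop :=
  ∃ B : Multiset (Multiset ℕ), B.join = S ∧ (∀ b ∈ B, b.sum ≤ L) ∧ Multiset.card B = k

theorem PackableNat.sum_le {L : ℕ} {S : Multiset ℕ} {k : ℕ} (h : PackableNat L S k) :
    S.sum ≤ k * L := by
  obtain ⟨B, hj, hb, hc⟩ := h
  subst hj; subst hc
  induction B using Multiset.induction_on with
  | empty => simp
  | cons b B ih =>
    have h1 : b.sum ≤ L := hb b (Multiset.mem_cons_self b B)
    have h2 := ih (fun c hc => hb c (Multiset.mem_cons_of_mem hc))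
    simp only [Multiset.join_cons, Multiset.sum_add, Multiset.card_cons]
    nlinarith

theorem PackableNat.succ {L : ℕ} {S : Multiset ℕ} {k : ℕ} (h : PackableNat L S k) :
    PackableNat L S (k + 1) := by
  obtain ⟨B, hj, hb, hc⟩ := h
  refine ⟨0 ::ₘ B, by simpa using hj, ?_, by simp [hc]⟩
  intro b hb'
  rcases Multiset.mem_cons.1 hb' with rfl | h
  · simp
  · exact hb b h

theorem PackableNat.mono {L : ℕ} {S : Multiset ℕ} {k k' : ℕ} (h : PackableNat L S k)
    (hk : k ≤ k') : PackableNat L S k' := by
  induction hk with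
  | refl => exact h
  | step _ ih => exact ih.succ

theorem PackableNat.peel {L : ℕ} {S : Multiset ℕ} {x k : ℕ}
    (h : PackableNat L (x ::ₘ S) k) :
    ∃ k', k = k' + 1 ∧ ∃ T : Multiset ℕ, T ≤ S ∧ x + T.sum ≤ L ∧ PackableNat L (S - T) k' := by
  obtain ⟨B, hj, hb, hc⟩ := h
  have hx : x ∈ B.join := by rw [hj]; exact Multiset.mem_cons_self x S
  obtain ⟨b, hbB, hxb⟩ := Multiset.mem_join.1 hx
  obtain ⟨B0, rfl⟩ := Multiset.exists_cons_of_mem hbB
  obtain ⟨T, rfl⟩ := Multiset.exists_cons_of_mem hxb
  have hS : T + B0.join = S := by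
    have : x ::ₘ (T + B0.join) = x ::ₘ S := by
      rw [← hj]; simp [Multiset.join_cons, Multiset.cons_add]
    exact (Multiset.cons_inj_right x).1 this
  refine ⟨Multiset.card B0, by simpa using hc.symm, T, ?_, ?_, B0, ?_, ?_, rfl⟩
  · rw [← hS]; exact Multiset.le_add_right T _
  · have := hb _ (Multiset.mem_cons_self _ B0)
    simpa using this
  · rw [← hS]; simp
  · intro c hc'
    exact hb c (Multiset.mem_cons_of_mem hc')

/-- Enumerate the ways of completing the current bin (remaining room `room`) by a sublist of the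
given list; the items left out (total at most `budget`) are collected in `acc` and handed to `next`. -/
def fill (next : List ℕ → Bool) : List ℕ → ℕ → ℕ → List ℕ → Bool
  | [], _, _, acc => next acc.reverse
  | y :: ys, room, budget, acc =>
    (Nat.ble y room && fill next ys (room - y) budget acc) ||
      (Nat.ble y budget && fill next ys room (budget - y) (y :: acc))

/-- `canPack L k l = false` certifies that the list `l` cannot be packed into `k` bins of capacity `L`. -/
def canPack (L : ℕ) : ℕ → List ℕ → Bool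
  | 0, l => l.isEmpty
  | _ + 1, [] => true
  | k + 1, x :: xs => Nat.ble x L && fill (canPack L k) xs (L - x) (k * L) []

theorem fill_complete (next : List ℕ → Bool) :
    ∀ (ys : List ℕ) (room budget : ℕ) (acc : List ℕ) (T : Multiset ℕ),
      T ≤ (ys : Multiset ℕ) → T.sum ≤ room → ((ys : Multiset ℕ) - T).sum ≤ budget →
      (∀ R : List ℕ, (R : Multiset ℕ) = (acc : Multiset ℕ) + ((ys : Multiset ℕ) - T) →
        next R = true) →
      fill next ys room budget acc = true := by
  intro ys
  induction ys with
  | nil =>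
    intro room budget acc T hT _ _ hnext
    have hT0 : T = 0 := by
      have : T ≤ (0 : Multiset ℕ) := by simpa using hT
      exact Multiset.le_zero.1 this
    subst hT0
    simp only [fill]
    apply hnext
    simp
  | cons y ys ih =>
    intro room budget acc T hT hroom hbud hnext
    simp only [fill, Bool.or_eq_true, Bool.and_eq_true, Nat.ble_eq]
    have hcoe : ((y :: ys : List ℕ) : Multiset ℕ) = y ::ₘ (ys : Multiset ℕ) := rfl
    by_cases hy : y ∈ T
    · left
      obtain ⟨T', rfl⟩ := Multiset.exists_cons_of_mem hy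
      have hT' : T' ≤ (ys : Multiset ℕ) := by
        rw [hcoe] at hT
        exact (Multiset.cons_le_cons_iff y).1 hT
      have hsum : y + T'.sum ≤ room := by simpa using hroom
      have hsub : ((y :: ys : List ℕ) : Multiset ℕ) - (y ::ₘ T') = (ys : Multiset ℕ) - T' := by
        rw [hcoe, Multiset.sub_cons, Multiset.erase_cons_head]
      refine ⟨by omega, ih (room - y) budget acc T' hT' (by omega) ?_ ?_⟩
      · rw [← hsub]; exact hbud
      · intro R hR
        apply hnext
        rw [hsub]; exact hR
    · right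
      have hT' : T ≤ (ys : Multiset ℕ) := by
        rw [hcoe] at hT
        exact (Multiset.le_cons_of_notMem hy).1 hT
      have hsub : ((y :: ys : List ℕ) : Multiset ℕ) - T = y ::ₘ ((ys : Multiset ℕ) - T) := by
        rw [hcoe]; exact Multiset.cons_sub_of_le y hT'
      have hsum : y + ((ys : Multiset ℕ) - T).sum ≤ budget := by
        rw [hsub] at hbud; simpa using hbud
      refine ⟨by omega, ih room (budget - y) (y :: acc) T hT' hroom (by omega) ?_⟩
      intro R hR
      apply hnext
      rw [hsub, hR, ← Multiset.cons_coe, Multiset.cons_add, Multiset.add_cons]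

theorem canPack_complete (L : ℕ) :
    ∀ (k : ℕ) (l : List ℕ), PackableNat L (l : Multiset ℕ) k → canPack L k l = true := by
  intro k
  induction k with
  | zero =>
    intro l h
    obtain ⟨B, hj, _, hc⟩ := h
    have hB : B = 0 := Multiset.card_eq_zero.1 hc
    subst hB
    have : (l : Multiset ℕ) = 0 := by simpa using hj.symm
    have hl : l = [] := by simpa using this
    subst hl
    rfl
  | succ k ih =>
    intro l h
    cases l with
    | nil => rfl
    | cons x xs =>
      have hcoe : ((x :: xs : List ℕ) : Multiset ℕ) = x ::ₘ (xs : Multiset ℕ) := rfl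
      rw [hcoe] at h
      obtain ⟨k', hk, T, hT, hsum, hP⟩ := h.peel
      have hk' : k' = k := by omega
      subst hk'
      simp only [canPack, Bool.and_eq_true, Nat.ble_eq]
      refine ⟨by omega, fill_complete _ xs (L - x) (k' * L) [] T hT (by omega) hP.sum_le ?_⟩
      intro R hR
      apply ih
      rw [hR]
      simpa using hP

theorem not_packable_of_canPack {L k : ℕ} {l : List ℕ} (h : canPack L k l = false) :
    ¬ PackableNat L (l : Multiset ℕ) k := by
  intro hP
  rw [canPack_complete L k l hP] at h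
  exact Bool.noConfusion h

/-! ### Transfer to rational sizes -/

/-- The rational instance with sizes `s / L`. -/
def toInst (L : ℕ) (l : List ℕ) : Multiset ℚ :=
  Multiset.map (fun s : ℕ => (s : ℚ) / (L : ℚ)) (l : Multiset ℕ)

theorem mem_toInst {L : ℕ} {l : List ℕ} {x : ℚ} :
    x ∈ toInst L l ↔ ∃ s ∈ l, (s : ℚ) / (L : ℚ) = x := by
  simp [toInst]

theorem floor_div_mul {L : ℕ} (hL : 0 < L) (s : ℕ) : ⌊((s : ℚ) / (L : ℚ)) * (L : ℚ)⌋₊ = s := by
  have hL' : (L : ℚ) ≠ 0 := by exact_mod_cast hL.ne'
  rw [div_mul_cancel₀ _ hL']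
  exact Nat.floor_natCast s

theorem div_injective {L : ℕ} (hL : 0 < L) :
    Function.Injective (fun s : ℕ => (s : ℚ) / (L : ℚ)) := by
  intro a b hab
  have h1 := floor_div_mul hL a
  have h2 := floor_div_mul hL b
  simp only at hab
  rw [hab] at h1
  omega

theorem sum_toInst (L : ℕ) (l : List ℕ) : (toInst L l).sum = (l.sum : ℚ) / (L : ℚ) := by
  induction l with
  | nil => simp [toInst]
  | cons a l ih =>
    have : toInst L (a :: l) = ((a : ℚ) / (L : ℚ)) ::ₘ toInst L l := by
      simp [toInst, ← Multiset.cons_coe]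
    rw [this, Multiset.sum_cons, ih]
    push_cast [List.sum_cons]
    ring

theorem count_toInst {L : ℕ} (hL : 0 < L) (l : List ℕ) (s : ℕ) :
    (toInst L l).count ((s : ℚ) / (L : ℚ)) = l.count s := by
  have := Multiset.count_map_eq_count' (fun s : ℕ => (s : ℚ) / (L : ℚ)) (l : Multiset ℕ)
    (div_injective hL) s
  simpa [toInst] using this

theorem packableNat_of_isPacking {L : ℕ} (hL : 0 < L) {l : List ℕ}
    {B : Multiset (Multiset ℚ)} (h : IsPacking (toInst L l) B) :
    PackableNat L (l : Multiset ℕ) (Multiset.card B) := by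
  obtain ⟨hj, hb⟩ := h
  have hLq : (0 : ℚ) < (L : ℚ) := by exact_mod_cast hL
  refine ⟨B.map (Multiset.map (fun q : ℚ => ⌊q * (L : ℚ)⌋₊)), ?_, ?_, by simp⟩
  · rw [← Multiset.map_join, hj, toInst, Multiset.map_map]
    have : ∀ s ∈ (l : Multiset ℕ),
        ((fun q : ℚ => ⌊q * (L : ℚ)⌋₊) ∘ fun s : ℕ => (s : ℚ) / (L : ℚ)) s = id s := by
      intro s _
      exact floor_div_mul hL s
    rw [Multiset.map_congr rfl this, Multiset.map_id]
  · intro b' hb'
    obtain ⟨b, hbB, rfl⟩ := Multiset.mem_map.1 hb'
    have hmem : ∀ x ∈ b, ((⌊x * (L : ℚ)⌋₊ : ℕ) : ℚ) = x * (L : ℚ) := by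
      intro x hx
      have hxI : x ∈ toInst L l := by
        rw [← hj]; exact Multiset.mem_join.2 ⟨b, hbB, hx⟩
      obtain ⟨s, _, rfl⟩ := mem_toInst.1 hxI
      rw [floor_div_mul hL s, div_mul_cancel₀ _ hLq.ne']
    have hcast : (((b.map (fun q : ℚ => ⌊q * (L : ℚ)⌋₊)).sum : ℕ) : ℚ) = b.sum * (L : ℚ) := by
      have e1 : (b.map (fun x : ℚ => x * (L : ℚ))).sum = b.sum * (L : ℚ) := by
        rw [Multiset.sum_map_mul_right, Multiset.map_id']
      rw [Nat.cast_multiset_sum, Multiset.map_map, ← e1]
      exact congrArg Multiset.sum (Multiset.map_congr rfl (fun x hx => by simpa using hmem x hx))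
    have h1 : b.sum ≤ 1 := hb b hbB
    have h2 : (((b.map (fun q : ℚ => ⌊q * (L : ℚ)⌋₊)).sum : ℕ) : ℚ) ≤ (L : ℚ) := by
      rw [hcast]; nlinarith
    exact_mod_cast h2

theorem join_map_singleton (I : Multiset ℚ) : (I.map (fun a => ({a} : Multiset ℚ))).join = I := by
  induction I using Multiset.induction_on with
  | empty => simp
  | cons a I ih => simp [ih]

/-- Lower bound for `OPT` from the checker. -/
theorem succ_le_OPT {L K : ℕ} {l : List ℕ} (hL : 0 < L) (hle : ∀ s ∈ l, s ≤ L)
    (hc : canPack L K l = false) : K + 1 ≤ OPT (toInst L l) := by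
  have hLq : (0 : ℚ) < (L : ℚ) := by exact_mod_cast hL
  unfold OPT
  apply le_csInf
  · refine ⟨_, (toInst L l).map (fun a => ({a} : Multiset ℚ)), ⟨join_map_singleton _, ?_⟩, rfl⟩
    intro b hb
    obtain ⟨a, ha, rfl⟩ := Multiset.mem_map.1 hb
    obtain ⟨s, hs, rfl⟩ := mem_toInst.1 ha
    have : (s : ℚ) ≤ (L : ℚ) := by exact_mod_cast hle s hs
    simp only [Multiset.sum_singleton]
    exact (div_le_one hLq).2 this
  · rintro k ⟨B, hB, rfl⟩
    by_contra hlt
    have hP := packableNat_of_isPacking hL hB
    exact not_packable_of_canPack hc (hP.mono (by omega))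

/-! ### Fractional covers from explicit lists -/

/-- The weight function attached to a list of (configuration, numerator) pairs with common denominator `D`. -/
noncomputable def zOf (L : ℕ) (P : List (List ℕ × ℕ)) (D : ℕ) : Multiset ℚ →₀ ℝ :=
  (P.map (fun p => Finsupp.single (toInst L p.1) ((p.2 : ℝ) / (D : ℝ)))).sum

theorem zOf_cons (L : ℕ) (p : List ℕ × ℕ) (P : List (List ℕ × ℕ)) (D : ℕ) :
    zOf L (p :: P) D = Finsupp.single (toInst L p.1) ((p.2 : ℝ) / (D : ℝ)) + zOf L P D := by
  simp [zOf]

theorem zOf_nonneg (L : ℕ) (P : List (List ℕ × ℕ)) (D : ℕ) (c : Multiset ℚ) :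
    0 ≤ zOf L P D c := by
  induction P with
  | nil => simp [zOf]
  | cons p P ih =>
    rw [zOf_cons, Finsupp.add_apply]
    have : 0 ≤ (Finsupp.single (toInst L p.1) ((p.2 : ℝ) / (D : ℝ)) : Multiset ℚ →₀ ℝ) c := by
      classical
      rw [Finsupp.single_apply]
      split_ifs
      · positivity
      · exact le_refl _
    linarith

theorem zOf_support (L : ℕ) (P : List (List ℕ × ℕ)) (D : ℕ) (c : Multiset ℚ)
    (hc : c ∈ (zOf L P D).support) : ∃ p ∈ P, c = toInst L p.1 := by
  induction P with
  | nil => simp [zOf] at hc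
  | cons p P ih =>
    classical
    rw [zOf_cons] at hc
    have := Finsupp.support_add hc
    rcases Finset.mem_union.1 this with h | h
    · have h' := Finsupp.support_single_subset h
      exact ⟨p, List.mem_cons_self, by simpa using h'⟩
    · obtain ⟨q, hq, rfl⟩ := ih h
      exact ⟨q, List.mem_cons_of_mem _ hq, rfl⟩

theorem zOf_sum (L : ℕ) (P : List (List ℕ × ℕ)) (D : ℕ) (h : Multiset ℚ → ℝ) :
    (zOf L P D).sum (fun c w => h c * w) =
      (P.map (fun p => h (toInst L p.1) * ((p.2 : ℝ) / (D : ℝ)))).sum := by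
  induction P with
  | nil => simp [zOf]
  | cons p P ih =>
    rw [zOf_cons, Finsupp.sum_add_index' (by simp) (by intro a b c; ring),
      Finsupp.sum_single_index (by simp), ih]
    simp

/-- The certificate check for a fractional cover: every configuration fits and uses sizes of the
instance, and every size is covered often enough (weights are `numerator / D`). -/
def checkLP (L : ℕ) (l : List ℕ) (P : List (List ℕ × ℕ)) (D : ℕ) : Bool :=
  P.all (fun p => Nat.ble p.1.sum L && p.1.all (fun s => l.contains s)) &&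
    l.all (fun s => Nat.ble (l.count s * D) ((P.map (fun p => p.1.count s * p.2)).sum))

theorem LPval_le {L D : ℕ} {l : List ℕ} {P : List (List ℕ × ℕ)} (hL : 0 < L) (hD : 0 < D)
    (h : checkLP L l P D = true) :
    LPval (toInst L l) ≤ (((P.map (fun p => p.2)).sum : ℕ) : ℝ) / (D : ℝ) := by
  have hLq : (0 : ℚ) < (L : ℚ) := by exact_mod_cast hL
  have hDr : (0 : ℝ) < (D : ℝ) := by exact_mod_cast hD
  simp only [checkLP, Bool.and_eq_true, List.all_eq_true, Nat.ble_eq, List.contains_iff_mem] at h
  obtain ⟨hP, hcov⟩ := h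
  unfold LPval
  apply csInf_le
  · refine ⟨0, ?_⟩
    rintro v ⟨z, ⟨hz, _, _⟩, rfl⟩
    exact Finset.sum_nonneg (fun c _ => hz c)
  · refine ⟨zOf L P D, ⟨zOf_nonneg L P D, ?_, ?_⟩, ?_⟩
    · intro c hc
      obtain ⟨p, hp, rfl⟩ := zOf_support L P D c hc
      obtain ⟨h1, h2⟩ := hP p hp
      refine ⟨?_, ?_⟩
      · intro x hx
        obtain ⟨s, hs, rfl⟩ := mem_toInst.1 hx
        exact mem_toInst.2 ⟨s, h2 s hs, rfl⟩
      · rw [sum_toInst]
        have : (p.1.sum : ℚ) ≤ (L : ℚ) := by exact_mod_cast h1
        exact (div_le_one hLq).2 this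
    · intro x hx
      obtain ⟨s, hs, rfl⟩ := mem_toInst.1 hx
      rw [zOf_sum L P D (fun c => (c.count ((s : ℚ) / (L : ℚ)) : ℝ)), count_toInst hL]
      have h3 := hcov s hs
      have h4 : (P.map (fun p => ((toInst L p.1).count ((s : ℚ) / (L : ℚ)) : ℝ) *
          ((p.2 : ℝ) / (D : ℝ)))).sum
          = (((P.map (fun p => p.1.count s * p.2)).sum : ℕ) : ℝ) / (D : ℝ) := by
        clear hP hcov h3
        induction P with
        | nil => simp
        | cons p P ih =>
          rw [List.map_cons, List.sum_cons, ih, List.map_cons, List.sum_cons, count_toInst hL]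
          push_cast
          ring
      rw [h4, le_div_iff₀ hDr]
      exact_mod_cast h3
    · have := zOf_sum L P D (fun _ => 1)
      simp only [one_mul] at this
      rw [this]
      clear hP hcov this
      induction P with
      | nil => simp
      | cons p P ih =>
        rw [List.map_cons, List.sum_cons, ih, List.map_cons, List.sum_cons]
        push_cast
        ring

/-- Main certificate theorem. -/
theorem gap_of_certificate {L K D : ℕ} {l : List ℕ} {P : List (List ℕ × ℕ)}
    (hL : 0 < L) (hD : 0 < D) (hle : ∀ s ∈ l, s ≤ L)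
    (h1 : canPack L K l = false) (h2 : checkLP L l P D = true) :
    ((K : ℝ) + 1) - (((P.map (fun p => p.2)).sum : ℕ) : ℝ) / (D : ℝ)
      ≤ (OPT (toInst L l) : ℝ) - LPval (toInst L l) := by
  have a := succ_le_OPT hL hle h1
  have b := LPval_le hL hD h2
  have a' : ((K : ℝ) + 1) ≤ (OPT (toInst L l) : ℝ) := by exact_mod_cast a
  linarith

end Vale.Agent.Lib.BinPacking
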